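import Vale.Agent.P338.R3.H968.Cell
import Vale.Agent.P338.R2.H110.Ev

/-!
P338-D: the acts of the cell machine (codes, pure semantics, legality), sequences of acts.

An act is a code and two payload words (`b`-bit words of constants).  `exec P a D` is the new data,
`Leg P a D` says that the act is legal; a program of an act is only required to work for legal acts.
-/

namespace Vale.Agent.P338.R3.H898

open Vale.Agent.P338.R2.H898 (Zip)
open Vale.Agent.P338.R3.H968

/-- Codes of acts: number and two payload words. -/
abbrev Act : Type := ℕ × List Bool × List Bool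

/-- Codes without payload. -/
def Act.c (n : ℕ) : Act := (n, [], [])

/-- Head to the right. -/
abbrev aR : Act := Act.c 0
/-- Head to the left. -/
abbrev aL : Act := Act.c 1
/-- Push a copy of the current cell on `A`, go right. -/
abbrev aPushR : Act := Act.c 2
/-- Go left, push a copy of this cell on `A`. -/
abbrev aPushL : Act := Act.c 3
/-- Pop `A`, push on `B`. -/
abbrev aTr : Act := Act.c 4
/-- Add the top of `B` (and pop) to the current cell, go right. -/
abbrev aAddR : Act := Act.c 5
/-- Subtract the top of `B` (and pop) from the current cell, go right. -/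
abbrev aSubR : Act := Act.c 6
/-- Go left, add the top of `B` (and pop) to this cell. -/
abbrev aAddL : Act := Act.c 7
/-- Go left, subtract the top of `B` (and pop) from this cell. -/
abbrev aSubL : Act := Act.c 8
/-- Multiply the current pair of cells (real and imaginary part) by a constant, go right by two. -/
abbrev aCmul (u v : List Bool) : Act := (9, u, v)
/-- Product of the complex cells in the current four cells, go right by four. -/
abbrev aProd : Act := Act.c 10
/-- Append a cell of the first operand. -/
abbrev aLoadX : Act := Act.c 11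
/-- Append a cell of the second operand. -/
abbrev aLoadY : Act := Act.c 12
/-- Append a zero cell. -/
abbrev aZero : Act := Act.c 13
/-- Release the lower half of the current cell plus the top of `B`, push the upper half. -/
abbrev aUnl : Act := Act.c 14
/-- Push a zero cell on `B`. -/
abbrev aZeroB : Act := Act.c 15

/-- The value of a payload word. -/
def wv (w : List Bool) : ℤ := (Vale.Agent.P338.R2.H778.val w : ℤ)

/-- The zero cell. -/
def cZero : Cell := fun _ => 0

/-- Real part of the product of a complex cell with a constant. -/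
def cmRe (P : CPar) (u v : ℤ) (x y : Cell) : Cell := cSub (cMulw P u x) (cMulw P v y)
/-- Imaginary part of the product of a complex cell with a constant. -/
def cmIm (P : CPar) (u v : ℤ) (x y : Cell) : Cell := cAdd (cMulw P v x) (cMulw P u y)
/-- Real part of the product of two complex cells. -/
def cpRe (P : CPar) (x y x' y' : Cell) : Cell := cSub (cMulp P x x') (cMulp P y y')
/-- Imaginary part of the product of two complex cells. -/
def cpIm (P : CPar) (x y x' y' : Cell) : Cell := cAdd (cMulp P x y') (cMulp P y x')

/-- The semantics of the acts as a relation: the act is legal and its result is `D'`. -/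
inductive Ex1 (P : CPar) : Act → DS → DS → Prop
  | mvR (D : DS) (c : Cell) (l r : List Cell) : D.X = ⟨l, c :: r⟩ →
      Ex1 P aR D { D with X := ⟨c :: l, r⟩ }
  | mvL (D : DS) (c : Cell) (l r : List Cell) : D.X = ⟨c :: l, r⟩ →
      Ex1 P aL D { D with X := ⟨l, c :: r⟩ }
  | pushR (D : DS) (c : Cell) (l r : List Cell) : D.X = ⟨l, c :: r⟩ →
      Ex1 P aPushR D { D with X := ⟨c :: l, r⟩, A := c :: D.A }
  | pushL (D : DS) (c : Cell) (l r : List Cell) : D.X = ⟨c :: l, r⟩ →
      Ex1 P aPushL D { D with X := ⟨l, c :: r⟩, A := c :: D.A }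
  | tr (D : DS) (c : Cell) (A : List Cell) : D.A = c :: A →
      Ex1 P aTr D { D with A := A, B := c :: D.B }
  | addR (D : DS) (c y : Cell) (l r B : List Cell) : D.X = ⟨l, c :: r⟩ → D.B = y :: B →
      Ex1 P aAddR D { D with X := ⟨cAdd c y :: l, r⟩, B := B }
  | subR (D : DS) (c y : Cell) (l r B : List Cell) : D.X = ⟨l, c :: r⟩ → D.B = y :: B →
      Ex1 P aSubR D { D with X := ⟨cSub c y :: l, r⟩, B := B }
  | addL (D : DS) (c y : Cell) (l r B : List Cell) : D.X = ⟨c :: l, r⟩ → D.B = y :: B →
      Ex1 P aAddL D { D with X := ⟨l, cAdd c y :: r⟩, B := B }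
  | subL (D : DS) (c y : Cell) (l r B : List Cell) : D.X = ⟨c :: l, r⟩ → D.B = y :: B →
      Ex1 P aSubL D { D with X := ⟨l, cSub c y :: r⟩, B := B }
  | cmul (D : DS) (u v : List Bool) (x y : Cell) (l r : List Cell) : u.length = P.b →
      v.length = P.b → D.X = ⟨l, x :: y :: r⟩ →
      Ex1 P (aCmul u v) D
        { D with X := ⟨cmIm P (wv u) (wv v) x y :: cmRe P (wv u) (wv v) x y :: l, r⟩ }
  | prod (D : DS) (x y x' y' : Cell) (l r : List Cell) : D.X = ⟨l, x :: y :: x' :: y' :: r⟩ →
      Ex1 P aProd D
        { D with X := ⟨cZero :: cZero :: cpIm P x y x' y' :: cpRe P x y x' y' :: l, r⟩ }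
  | loadX (D : DS) (w : List Bool) (i : List (List Bool)) (l : List Cell) : D.X = ⟨l, []⟩ →
      D.ix = w :: i → w.length = P.Y * P.w →
      Ex1 P aLoadX D
        { D with
          X := ⟨cLoad P (Vale.Agent.P338.R2.H778.val w) :: l, []⟩
          ix := i
          jx := w :: D.jx }
  | loadY (D : DS) (w : List Bool) (i : List (List Bool)) (l : List Cell) : D.X = ⟨l, []⟩ →
      D.iy = w :: i → w.length = P.Y * P.w →
      Ex1 P aLoadY D
        { D with
          X := ⟨cLoad P (Vale.Agent.P338.R2.H778.val w) :: l, []⟩
          iy := i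
          jy := w :: D.jy }
  | zero (D : DS) (l : List Cell) : D.X = ⟨l, []⟩ →
      Ex1 P aZero D { D with X := ⟨cZero :: l, []⟩ }
  | unl (D : DS) (c y : Cell) (l r B : List Cell) : D.X = ⟨l, c :: r⟩ → D.B = y :: B →
      D.acc < 2 ^ P.b →
      Ex1 P aUnl D
        { D with
          X := ⟨c :: l, r⟩
          B := cHi P c :: B
          out := D.out ++ (emit P (cAdd (cLo P c) y) P.Y 0 D.acc).1
          acc := (emit P (cAdd (cLo P c) y) P.Y 0 D.acc).2 }
  | zeroB (D : DS) : Ex1 P aZeroB D { D with B := cZero :: D.B }

/-- Execution of a list of acts. -/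
inductive Ex (P : CPar) : List Act → DS → DS → Prop
  | nil (D : DS) : Ex P [] D D
  | cons {a : Act} {l : List Act} {D D' D'' : DS} : Ex1 P a D D' → Ex P l D' D'' →
      Ex P (a :: l) D D''

theorem Ex.one {P : CPar} {a : Act} {D D' : DS} (h : Ex1 P a D D') : Ex P [a] D D' :=
  .cons h (.nil D')

theorem Ex.append {P : CPar} {l l' : List Act} {D D' D'' : DS} (h : Ex P l D D')
    (h' : Ex P l' D' D'') : Ex P (l ++ l') D D'' := by
  induction h with
  | nil => exact h'
  | cons h1 _ ih => exact .cons h1 (ih h')

end Vale.Agent.P338.R3.H898
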