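import Vale.Agent.P338.R3.H898.Wts
import Vale.Agent.P338.R3.H313.MicroDef

/-!
P338-D: the total weight of all acts of the multiplication core, and the number of iterations.
-/

namespace Vale.Agent.P338.R3.H898

open Vale.Agent.P338.R3.H968 (CPar)
open Vale.Agent.P338.R3.H313 (Act' Sw Mc swIns swLen swM len ev actsEv mvA stM zs PV KP PP fwP bkP
  micro ldv ulv nTp nUp insP)
open Vale.Agent.P338.R3.H313.Ctl (reps rep stepActs stepIters)
open Vale.Agent.P338.R3.H527 (Slide Good zActs lvC swActs posActs best best_good)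
open Vale.Agent.P338.R3.H651 (sws)
open Vale.Agent.P338.R3.H282 (St DC)
open Vale.Agent.P338.R3.H121 (nz nj nd tot)

section pass

variable {S D : Type} (K : S → ℕ) (cw : S × D × ℕ → List Bool × List Bool)
  (ldv ulv : S × ℕ → Bool) (wt : CPar → ℕ → ℕ) (P : CPar) (p : S)

/-- Weight of a pass with one list of instructions per position. -/
theorem wts_pos_le {m : Mc D} {w : ℕ} (hl : len K (p, m) = 2 ^ K p)
    (h : ∀ u, wts wt P (reps (ev K cw ldv ulv (p, m, u))) ≤ w) :
    wts wt P (stepActs (len K) (ev K cw ldv ulv) p m) ≤ 2 ^ K p * w := by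
  unfold stepActs
  refine (wts_flatMap_le (w := w) fun u _ => h u).trans ?_
  rw [List.length_range, hl]

theorem wts_dg (c : D) : wts wt P (stepActs (len K) (ev K cw ldv ulv) p (.dg c)) ≤
    2 ^ K p * (2 * wt P 9) :=
  wts_pos_le K cw ldv ulv wt P p rfl fun u => by
    simp [ev, reps, rep, two_mul]

theorem wts_prod : wts wt P (stepActs (len K) (ev K cw ldv ulv) p .prod) ≤ 2 ^ K p * wt P 10 :=
  wts_pos_le K cw ldv ulv wt P p rfl fun u => by
    simp [ev, reps, rep]

variable {wt P}

theorem wts_load {w : ℕ} (hw : ∀ o, o ≠ 9 → o ≠ 10 → wt P o ≤ w) :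
    wts wt P (stepActs (len K) (ev K cw ldv ulv) p .load) ≤ 2 ^ K p * (4 * w) := by
  refine wts_pos_le K cw ldv ulv wt P p rfl fun u => ?_
  have h1 := hw 11 (by norm_num) (by norm_num)
  have h2 := hw 12 (by norm_num) (by norm_num)
  have h3 := hw 13 (by norm_num) (by norm_num)
  unfold ev
  cases ldv (p, u)
  · simp only [cond_false, reps, rep, List.flatMap_cons, List.flatMap_nil, List.append_nil,
      wts_replicate]
    omega
  · simp only [cond_true, reps, rep, List.flatMap_cons, List.flatMap_nil, List.append_nil,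
      wts_replicate, wts_append]
    omega

theorem wts_unl {w : ℕ} (hw : ∀ o, o ≠ 9 → o ≠ 10 → wt P o ≤ w) :
    wts wt P (stepActs (len K) (ev K cw ldv ulv) p .unl) ≤ 2 ^ K p * (4 * w) := by
  refine wts_pos_le K cw ldv ulv wt P p rfl fun u => ?_
  have h1 := hw 14 (by norm_num) (by norm_num)
  have h2 := hw 0 (by norm_num) (by norm_num)
  unfold ev
  cases ulv (p, u)
  · simp only [cond_false, reps, rep, List.flatMap_cons, List.flatMap_nil, List.append_nil,
      wts_replicate, mvA, cond_true]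
    omega
  · simp only [cond_true, reps, rep, List.flatMap_cons, List.flatMap_nil, List.append_nil,
      wts_replicate, wts_append, mvA]
    omega

theorem wts_rew {w : ℕ} (hw : ∀ o, o ≠ 9 → o ≠ 10 → wt P o ≤ w) :
    wts wt P (stepActs (len K) (ev K cw ldv ulv) p .rew) ≤ 2 ^ K p * (4 * w) := by
  have h1 := hw 1 (by norm_num) (by norm_num)
  rw [H527.stepActs_rew, wts_replicate]
  show 4 * 2 ^ K p * wt P 1 ≤ _
  calc 4 * 2 ^ K p * wt P 1 ≤ 4 * 2 ^ K p * w := Nat.mul_le_mul_left _ h1
    _ = 2 ^ K p * (4 * w) := by ring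

theorem wts_zb {w : ℕ} (hw : ∀ o, o ≠ 9 → o ≠ 10 → wt P o ≤ w) :
    wts wt P (stepActs (len K) (ev K cw ldv ulv) p .zb) ≤ 2 ^ K p * w := by
  have h1 := hw 15 (by norm_num) (by norm_num)
  have e : wts wt P (stepActs (len K) (ev K cw ldv ulv) p .zb) = wt P 15 := by
    unfold stepActs
    show wts wt P ((List.range 1).flatMap _) = _
    simp [ev, reps, rep]
  rw [e]
  exact h1.trans (Nat.le_mul_of_pos_left _ (by positivity))

/-- Weight of the passes of a step. -/
theorem wts_step {δ : Type} (cw : S × DC δ × ℕ → List Bool × List Bool) {w : ℕ}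
    (hw : ∀ o, o ≠ 9 → o ≠ 10 → wt P o ≤ w) {Q : ℕ × List Slide} (hg : Good Q.1 Q.2)
    (st : St δ) :
    (wts wt P ((stM Q (K p) st).flatMap (stepActs (len K) (ev K cw ldv ulv) p)) : ℝ) ≤
      2 ^ K p * (4 * w * ((3 * Q.2.length + 3 * Q.1) * nz st +
        6 * (Q.2.length / (Q.1 * 2 ^ Q.1)) * nj st) + (2 * wt P 9 + 4 * w) * nd st) := by
  have hz : ∀ (tr : Bool) (J : List ℕ), (wts wt P (((sws tr Q (lvC J (K p))).flatMap swM).flatMap
      (stepActs (len K) (ev K cw ldv ulv) p)) : ℝ) ≤ 2 ^ K p * (4 * w *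
        ((3 * Q.2.length + 3 * Q.1) * 1 + 6 * (Q.2.length / (Q.1 * 2 ^ Q.1)) * J.length)) := by
    intro tr J
    rw [H527.zs_acts]
    have h1 := wts_zActs (wt := wt) (P := P) (w := w)
      (fun o ho => hw o (by omega) (by omega)) tr Q (lvC J (K p))
    have h2 := H651.length_zActs tr hg J (K p)
    have h3 : (wts wt P (zActs tr Q (lvC J (K p))) : ℝ) ≤
        w * ((zActs tr Q (lvC J (K p))).length : ℝ) := by exact_mod_cast h1
    refine h3.trans ((mul_le_mul_of_nonneg_left h2 (Nat.cast_nonneg w)).trans_eq ?_)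
    rw [pow_add]
    ring
  cases st with
  | dn J =>
    have := hz true J
    simp only [nz, nj, nd, Nat.cast_one, Nat.cast_zero, mul_zero, add_zero]
    exact this
  | up J =>
    have := hz false J
    simp only [nz, nj, nd, Nat.cast_one, Nat.cast_zero, mul_zero, add_zero]
    exact this
  | dg c =>
    have h1 := wts_dg K cw ldv ulv wt P p c
    have h2 := wts_rew K cw ldv ulv p (wt := wt) (P := P) hw
    have h3 : wts wt P ((stM Q (K p) (St.dg c)).flatMap
        (stepActs (len K) (ev K cw ldv ulv) p)) ≤ 2 ^ K p * (2 * wt P 9 + 4 * w) := by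
      unfold Vale.Agent.P338.R3.H313.stM
      rw [List.flatMap_cons, List.flatMap_cons, List.flatMap_nil, List.append_nil, wts_append,
        Nat.mul_add]
      exact Nat.add_le_add h1 h2
    simp only [nz, nj, nd, Nat.cast_one, Nat.cast_zero, mul_zero, add_zero, zero_add, mul_one]
    exact_mod_cast h3

/-- Weight of a list of steps. -/
theorem wts_steps {δ : Type} (cw : S × DC δ × ℕ → List Bool × List Bool) {w : ℕ}
    (hw : ∀ o, o ≠ 9 → o ≠ 10 → wt P o ≤ w) {Q : ℕ × List Slide} (hg : Good Q.1 Q.2)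
    (l : List (St δ)) :
    (wts wt P ((l.flatMap (stM Q (K p))).flatMap
      (stepActs (len K) (ev K cw ldv ulv) p)) : ℝ) ≤
      2 ^ K p * (4 * w * ((3 * Q.2.length + 3 * Q.1) * tot nz l +
        6 * (Q.2.length / (Q.1 * 2 ^ Q.1)) * tot nj l) + (2 * wt P 9 + 4 * w) * tot nd l) := by
  induction l with
  | nil => simp
  | cons st l ih =>
    rw [List.flatMap_cons, List.flatMap_append, wts_append]
    have h := wts_step K ldv ulv p cw hw hg st
    simp only [H121.tot_cons]
    push_cast
    refine (add_le_add h ih).trans_eq ?_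
    ring

end pass

/-- **The weight of all acts.**  `w` bounds the weights of all opcodes except `9` and `10`. -/
theorem wts_acts {wt : CPar → ℕ → ℕ} {P : CPar} {w : ℕ}
    (hw : ∀ o, o ≠ 9 → o ≠ 10 → wt P o ≤ w)
    (cw : PV × DC Vale.Agent.P338.R3.H352.Dc × ℕ → List Bool × List Bool) (p : PV) :
    (wts wt P (Vale.Agent.P338.R3.H313.Ctl.acts nTp nUp (insP cw) p) : ℝ) ≤
      2 ^ KP p * (4 * w * ((3 * (PP p).2.length + 3 * (PP p).1) * tot nz (fwP p ++ bkP p) +
        6 * ((PP p).2.length / ((PP p).1 * 2 ^ (PP p).1)) * tot nj (fwP p ++ bkP p)) +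
        (2 * wt P 9 + 4 * w) * tot nd (fwP p ++ bkP p) + (wt P 10 + 17 * w)) := by
  rw [H313.acts_P]
  have hg : Good (PP p).1 (PP p).2 := best_good _
  have h1 := wts_steps KP ldv ulv p cw hw hg (fwP p)
  have h2 := wts_steps KP ldv ulv p cw hw hg (bkP p)
  have h3 : (wts wt P (stepActs (len KP) (ev KP cw ldv ulv) p .load) : ℝ) ≤
      2 ^ KP p * (4 * w) := by exact_mod_cast wts_load KP cw ldv ulv p hw
  have h4 : (wts wt P (stepActs (len KP) (ev KP cw ldv ulv) p .rew) : ℝ) ≤
      2 ^ KP p * (4 * w) := by exact_mod_cast wts_rew KP cw ldv ulv p hw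
  have h5 : (wts wt P (stepActs (len KP) (ev KP cw ldv ulv) p .prod) : ℝ) ≤
      2 ^ KP p * wt P 10 := by exact_mod_cast wts_prod KP cw ldv ulv wt P p
  have h6 : (wts wt P (stepActs (len KP) (ev KP cw ldv ulv) p .zb) : ℝ) ≤
      2 ^ KP p * w := by exact_mod_cast wts_zb KP cw ldv ulv p hw
  have h7 : (wts wt P (stepActs (len KP) (ev KP cw ldv ulv) p .unl) : ℝ) ≤
      2 ^ KP p * (4 * w) := by exact_mod_cast wts_unl KP cw ldv ulv p hw
  unfold micro
  simp only [List.flatMap_append, List.flatMap_cons, List.flatMap_nil, List.append_nil,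
    wts_append, H121.tot_append]
  push_cast
  linarith

/-! ### the number of iterations -/

section iters

variable {S D : Type} (K : S → ℕ) (cw : S × D × ℕ → List Bool × List Bool)
  (ldv ulv : S × ℕ → Bool) (p : S)

theorem one_le_len (m : Mc D) : 1 ≤ len K (p, m) := by
  unfold len
  cases m <;> first | exact le_rfl | exact Nat.one_le_two_pow

theorem ev_pos (m : Mc D) (u : ℕ) : ev K cw ldv ulv (p, m, u) ≠ [] ∧
    ∀ y ∈ ev K cw ldv ulv (p, m, u), 1 ≤ y.1 := by
  have h4 : 1 ≤ 4 * 2 ^ K p := by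
    have := Nat.one_le_two_pow (n := K p)
    omega
  cases m with
  | sw c =>
    refine ⟨?_, H651.one_le_swIns c u⟩
    show swIns c u ≠ []
    unfold swIns
    rw [List.flatMap_append]
    simp [actsEv]
  | rew => simpa [ev] using h4
  | adv => simpa [ev] using h4
  | dg c => simp [ev]
  | prod => simp [ev]
  | load => unfold ev; cases ldv (p, u) <;> simp
  | zb => simp [ev]
  | unl => unfold ev; cases ulv (p, u) <;> simp

/-- The number of loop iterations of a list of passes. -/
theorem sum_stepIters_le (l : List (Mc D)) :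
    (l.map (stepIters (len K) (ev K cw ldv ulv) p)).sum ≤
      4 * (l.flatMap (stepActs (len K) (ev K cw ldv ulv) p)).length := by
  rw [List.length_flatMap, ← List.sum_map_mul_left]
  refine List.sum_le_sum fun m _ => ?_
  exact stepIters_le (one_le_len K p m) (ev_pos K cw ldv ulv p m)

end iters

theorem length_eq_wts (P : CPar) (l : List Act) : l.length = wts (fun _ _ => 1) P l := by
  induction l with
  | nil => rfl
  | cons a l ih => rw [List.length_cons, wts_cons, ih, add_comm]

/-- **The number of loop iterations of the core.** -/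
theorem iters_le (cw : PV × DC Vale.Agent.P338.R3.H352.Dc × ℕ → List Bool × List Bool) (p : PV) :
    (Vale.Agent.P338.R3.H313.Ctl.iters nTp nUp (insP cw) p : ℝ) ≤
      4 * (2 ^ KP p * (4 * ((3 * (PP p).2.length + 3 * (PP p).1) * tot nz (fwP p ++ bkP p) +
        6 * ((PP p).2.length / ((PP p).1 * 2 ^ (PP p).1)) * tot nj (fwP p ++ bkP p)) +
        6 * tot nd (fwP p ++ bkP p) + 18)) := by
  have h1 := sum_stepIters_le KP cw ldv ulv p (micro p)
  rw [← H313.iters_P, ← H313.acts_P] at h1
  have h2 := wts_acts (wt := fun _ _ => 1) (P := ⟨0, 0, 0, 0⟩) (w := 1) (fun _ _ _ => le_rfl) cw p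
  rw [← length_eq_wts] at h2
  have h3 : (Vale.Agent.P338.R3.H313.Ctl.iters nTp nUp (insP cw) p : ℝ) ≤
      4 * ((Vale.Agent.P338.R3.H313.Ctl.acts nTp nUp (insP cw) p).length : ℝ) := by
    exact_mod_cast h1
  refine h3.trans (mul_le_mul_of_nonneg_left (h2.trans_eq ?_) (by norm_num))
  push_cast
  ring

end Vale.Agent.P338.R3.H898
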