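import Vale.Agent.P338.R3.H898.Store
import Vale.Agent.P338.D.CM.Interp
import Vale.Agent.P338.R3.H772.TopSpec

/-!
P338-D: the core program from the programs of the acts, the control and the setup.
-/

namespace Vale.Agent.P338.R3.H898

open Vale.Agent.Lib.PolyTime (PT PB Enc enc esize Word pb PBd)
open Vale.Agent.P338.R2.H898 Vale.Agent.P338.R2.H968 Vale.Agent.P338.R2.H784
open Vale.Agent.P338.R2.H968.CallEnv (mem0)
open Vale.Agent.P338.R3.H968
open Vale.Agent.P338.D.CM
open Vale.Agent.P338.R3.H313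
open Vale.Agent.P338.R3.H772 (CoreSpec coreIn lval)
open Function (update)

/-- The opcode of an act. -/
def opc (a : Act) : Fin 16 := if h : a.1 < 16 then ⟨a.1, h⟩ else 0

/-- The payload words of an act. -/
def pay (a : Act) (k : Bool) : Word := bif k then a.2.2 else a.2.1

theorem pt_opc (o : Fin 16) : PT ∅ fun a : Act => decide (opc a = o) := by
  have h1 : PT ∅ fun a : Act => a.1 := PT.fst PT.id
  by_cases ho : o = 0
  · subst ho
    have h2 := ((h1.eqNat (PT.const 0)).or ((h1.lt (PT.const 16)).not))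
    refine h2.congr fun a => ?_
    by_cases ha : a.1 < 16
    · simp [opc, ha, Fin.ext_iff]
    · simp [opc, ha]
  · have h2 := h1.eqNat (PT.const (o : ℕ))
    refine h2.congr fun a => ?_
    by_cases ha : a.1 < 16
    · simp [opc, ha, Fin.ext_iff]
    · have h3 : a.1 ≠ (o : ℕ) := fun h => ha (h ▸ o.2)
      simp [opc, ha, h3, Ne.symm ho]

theorem pt_pay (k : Bool) : PT ∅ fun a : Act => pay a k := by
  cases k
  · exact (PT.fst (PT.snd PT.id)).congr fun a => rfl
  · exact (PT.snd (PT.snd PT.id)).congr fun a => rfl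

/-- The data of the cell machine together with its parameters. -/
abbrev MD : Type := CPar × DS

/-- The files of the data. -/
def repD {A : MTM} (x : MD) : FT A → Zip (Ac A) := ft x.1 x.2

/-- The operations of the cell machine: `wt P o` is the weight of the opcode `o`. -/
def Mo (wt : CPar → ℕ → ℕ) : Sem Bool (Fin 16) MD := fun o r x t x' =>
  x.1.Ok ∧ x'.1 = x.1 ∧ Rest x.2 ∧ Ex1 x.1 ((o : ℕ), r false, r true) x.2 x'.2 ∧ t = wt x.1 o

theorem Ex1.lt {P : CPar} {a : Act} {D D' : DS} (h : Ex1 P a D D') : a.1 < 16 := by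
  cases h <;> norm_num [Act.c]

/-- The total weight of a list of acts. -/
def wts (wt : CPar → ℕ → ℕ) (P : CPar) (l : List Act) : ℕ := (l.map fun a => wt P a.1).sum

theorem trace_of_ex {wt : CPar → ℕ → ℕ} {P : CPar} (hP : P.Ok) {l : List Act} {D D' : DS}
    (h : Ex P l D D') (hR : Rest D) :
    Trace (Mo wt) opc pay l (P, D) (wts wt P l) (P, D') := by
  induction h with
  | nil D => exact .nil _
  | @cons a l D D1 D2 h1 _ ih =>
    have ha := h1.lt
    have e : wts wt P (a :: l) = wt P a.1 + wts wt P l := by simp [wts]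
    rw [e]
    refine .cons ?_ (ih (hR.ex1 h1))
    have e1 : ((opc a : Fin 16) : ℕ) = a.1 := by simp [opc, ha]
    refine ⟨hP, rfl, hR, ?_, ?_⟩
    · rw [e1]
      exact h1
    · rw [e1]

/-- The two files of a call that hold the operands at the beginning. -/
structure InF (A : MTM) where
  fx : FT A
  fy : FT A
  ne : fx ≠ fy

/-- What the setup has to do: from the initial files of the core program to the initial files of
the interpreter (`big` expands the parameters, `cp` are the parameters of the cells). -/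
def SetupOK {P0 PP : Type} [Enc P0] [Enc PP] {A : MTM} (inp : InF A) (V : Set P0) (cap : P0 → ℕ)
    (big : P0 → PP) (cp : P0 → CPar) (D0 : P0 → List Bool → List Bool → DS) (cS : P0 → ℕ) :
    Prop :=
  ∃ VS : ℕ, ∀ W, VS ≤ W → ∃ su : Prog (CallMem A) (CF (FT A) Bool W) (Ac A),
    ∀ p ∈ V, ∀ x y : List Bool, x.length = cap p → y.length = cap p →
      Prog.Run (dc A) su ⟨mem0 A, coreIn bc (.dat inp.fx) (.dat inp.fy) .st x y (enc p)⟩ (cS p)
        ⟨mem0 A, allZ W bc (repD (A := A)) (cp p, D0 p x y) (fun _ => []) (enc (big p)) []⟩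

/-- **The core program.**  The exponent `c` depends only on the functions of the control. -/
theorem core_of {PP : Type} [Enc PP]
    {nT : PP → ℕ} {nU : PP × ℕ → ℕ} {ins : PP × ℕ × ℕ → List (ℕ × Act)}
    (hT : PT ∅ nT) (hU : PT ∅ nU) (hI : PT ∅ ins) :
    ∃ c : ℕ, ∀ {P0 : Type} [Enc P0] {A : MTM} {K : ℕ} {wt : CPar → ℕ → ℕ}
      (_ : Ops (dc A) bc (mem0 A) (repD (A := A)) (Mo wt) K)
      {V : Set P0} {cap : P0 → ℕ} {big : P0 → PP} {cp : P0 → CPar} (_ : ∀ p ∈ V, (cp p).Ok)
      {D0 : P0 → List Bool → List Bool → DS} {cS : P0 → ℕ} (inp : InF A)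
      (_ : SetupOK inp V cap big cp D0 cS) (_ : ∀ p x y, Rest (D0 p x y))
      (_ : ∀ p ∈ V, ∀ x y : List Bool, x.length = cap p → y.length = cap p →
        ∃ D' : DS, Ex (cp p) (Ctl.acts nT nU ins (big p)) (D0 p x y) D' ∧
          D'.out.length = 2 * cap p ∧ lval D'.out = lval x * lval y),
      ∃ (W : ℕ) (core : Prog (CallMem A) (CF (FT A) Bool W) (Ac A)),
        CoreSpec (dc A) (fun b => Sy.l (bitL b)) (mem0 A) core (.dat inp.fx) (.dat inp.fy) .st
          (.dat (.inl .out)) V cap
          (fun p => cS p + (K * wts wt (cp p) (Ctl.acts nT nU ins (big p)) +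
            (Ctl.iters nT nU ins (big p) + 1) * pb c (esize (big p))) + 1) := by
  obtain ⟨VC, c, hC⟩ := exists_core pt_opc pt_pay hT hU hI
  refine ⟨c, ?_⟩
  intro P0 _ A K wt hO V cap big cp hcp D0 cS inp hS hrest hM
  have hb : (bc true : Ac A) ≠ bc false := by
    intro h
    simp [bitL] at h
  obtain ⟨VS, hS⟩ := hS
  obtain ⟨su, hsu⟩ := hS (max VS VC) (le_max_left _ _)
  obtain ⟨co, hco⟩ := hC hb hO (max VS VC) (le_max_right _ _)
  refine ⟨max VS VC, .seq su (.seq co
    (Vale.Agent.P338.R2.H235.op1 (.dat (.inl .out)) .rew)), ?_⟩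
  intro p hp x y hx hy
  obtain ⟨D', h1, h2, h3⟩ := hM p hp x y hx hy
  have r1 := hsu p hp x y hx hy
  obtain ⟨r', r2⟩ := hco (big p) _ _ _ (trace_of_ex (wt := wt) (hcp p hp) h1 (hrest p x y))
  have r3 := Vale.Agent.P338.R2.H235.run_op1 (d := dc A) (.dat (.inl .out)) .rew (mem0 A)
    (allZ (max VS VC) bc (repD (A := A)) (cp p, D') r'
      (enc ((big p, nT (big p), 0, []) : Ctl.St PP Act)) [])
  refine ⟨_, D'.out, (r1.seq (r2.seq r3)).mono (by beta_reduce; omega), ?_, h2, h3⟩
  show update (allZ (max VS VC) bc (repD (A := A)) (cp p, D') r'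
      (enc ((big p, nT (big p), 0, []) : Ctl.St PP Act)) []) (.dat (.inl .out)) _
      (.dat (.inl .out)) = _
  rw [Function.update_self]
  simp [allZ, repD, ft, fc, Op.app]

end Vale.Agent.P338.R3.H898
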