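import Vale.Agent.P338.R3.H898.Core
import Vale.Agent.P338.R3.H772.Wire

/-!
P338-D: the core program as `HasCore`.
-/

namespace Vale.Agent.P338.R3.H898

open Vale.Agent.Lib.PolyTime (PT PB Enc enc esize Word pb PBd)
open Vale.Agent.P338.R2.H898 Vale.Agent.P338.R2.H968 Vale.Agent.P338.R2.H784
open Vale.Agent.P338.R2.H968.CallEnv (mem0)
open Vale.Agent.P338.R3.H968
open Vale.Agent.P338.D.CM
open Vale.Agent.P338.R3.H313
open Vale.Agent.P338.R3.H772 (CoreSpec coreIn lval HasCore)

theorem finite_CFile : Finite CFile := by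
  let f : CFile → Fin 4 := fun
    | .opX => 0
    | .opY => 1
    | .clk => 2
    | .res => 3
  refine Finite.of_injective f ?_
  intro a b h
  cases a <;> cases b <;> simp_all [f]

theorem finite_FT (A : MTM) : Finite (FT A) := by
  have := A.finTape
  have := finite_CFile
  infer_instance

theorem finite_Ac (A : MTM) : Finite (Ac A) := by
  have := A.finSym
  infer_instance

/-- The operands are on the operand files of the call. -/
def inF (A : MTM) : InF A where
  fx := .inr (.inr .opX)
  fy := .inr (.inr .opY)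
  ne := by simp

/-- **The core program**, in the form needed for the final composition. -/
theorem hasCore_of {PP : Type} [Enc PP]
    {nT : PP → ℕ} {nU : PP × ℕ → ℕ} {ins : PP × ℕ × ℕ → List (ℕ × Act)}
    (hT : PT ∅ nT) (hU : PT ∅ nU) (hI : PT ∅ ins) :
    ∃ c : ℕ, ∀ {P0 : Type} [Enc P0] {A : MTM} {K : ℕ} {wt : CPar → ℕ → ℕ}
      (_ : Ops (dc A) bc (mem0 A) (repD (A := A)) (Mo wt) K)
      {V : Set P0} {cap : P0 → ℕ} {big : P0 → PP} {cp : P0 → CPar} (_ : ∀ p ∈ V, (cp p).Ok)
      {D0 : P0 → List Bool → List Bool → DS} {cS : P0 → ℕ}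
      (_ : SetupOK (inF A) V cap big cp D0 cS) (_ : ∀ p x y, Rest (D0 p x y))
      (_ : ∀ p ∈ V, ∀ x y : List Bool, x.length = cap p → y.length = cap p →
        ∃ D' : DS, Ex (cp p) (Ctl.acts nT nU ins (big p)) (D0 p x y) D' ∧
          D'.out.length = 2 * cap p ∧ lval D'.out = lval x * lval y),
      HasCore V cap (fun p => cS p + (K * wts wt (cp p) (Ctl.acts nT nU ins (big p)) +
        (Ctl.iters nT nU ins (big p) + 1) * pb c (esize (big p))) + 1) := by
  obtain ⟨c, hc⟩ := core_of hT hU hI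
  refine ⟨c, ?_⟩
  intro P0 _ A K wt hO V cap big cp hcp D0 cS hS hrest hM
  obtain ⟨W, core, hcore⟩ := hc hO hcp (inF A) hS hrest hM
  have h1 := finite_FT A
  have h2 := finite_Ac A
  have h3 := finiteCallMem A
  refine ⟨CallMem A, CF (FT A) Bool W, Ac A, inferInstance, h3, inferInstance, h2, dc A, .l,
    Sy.dl, mem0 A, core, _, _, _, _, fun _ => rfl, ?_, hcore⟩
  simp [inF]

end Vale.Agent.P338.R3.H898
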