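import Vale.Agent.P338.R3.H898.Act
import Vale.Agent.P338.R3.H282.Step

/-!
P338-D: the array of the cell machine as a function, semantics of the steps at the level of cells.

The position `u` of the array consists of the cells `4 u, 4 u + 1` (first operand, real and
imaginary part) and `4 u + 2, 4 u + 3` (second operand).
-/

namespace Vale.Agent.P338.R3.H898

open Vale.Agent.P338.R2.H898 (Zip)
open Vale.Agent.P338.R3.H968
open Vale.Agent.P338.R3.H282 (St DC dnF upF)

/-- The list of the values of `F` below `n`. -/
def arr {α : Type*} (n : ℕ) (F : ℕ → α) : List α := (List.range n).map F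

@[simp] theorem length_arr {α : Type*} (n : ℕ) (F : ℕ → α) : (arr n F).length = n := by
  simp [arr]

theorem arr_congr {α : Type*} {n : ℕ} {F G : ℕ → α} (h : ∀ i < n, F i = G i) :
    arr n F = arr n G :=
  List.map_congr_left fun i hi => h i (List.mem_range.mp hi)

theorem arr_add {α : Type*} (n m : ℕ) (F : ℕ → α) :
    arr (n + m) F = arr n F ++ arr m (fun i => F (n + i)) := by
  simp only [arr, List.range_add, List.map_append, List.map_map]
  rfl

/-- The data with the array `F` in front of the head. -/
def atL (D : DS) (n : ℕ) (F : ℕ → Cell) : DS := { D with X := ⟨[], arr n F⟩ }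

/-- The data with the array `F` behind the head. -/
def atR (D : DS) (n : ℕ) (F : ℕ → Cell) : DS := { D with X := ⟨(arr n F).reverse, []⟩ }

/-- Rewinding the array. -/
theorem ex_rewind (P : CPar) (D : DS) (n : ℕ) (F : ℕ → Cell) :
    Ex P (List.replicate n aL) (atR D n F) (atL D n F) := by
  have key : ∀ (l r : List Cell), Ex P (List.replicate l.length aL)
      { D with X := ⟨l, r⟩ } { D with X := ⟨[], l.reverse ++ r⟩ } := by
    intro l
    induction l with
    | nil => intro r; exact .nil _
    | cons c l ih =>
      intro r
      rw [List.length_cons, List.replicate_succ]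
      refine .cons (.mvL _ c l r rfl) ?_
      have := ih (c :: r)
      simpa using this
  have := key (arr n F).reverse []
  simpa [atL, atR] using this

/-- Going to the right end of the array. -/
theorem ex_goR (P : CPar) (D : DS) (n : ℕ) (F : ℕ → Cell) :
    Ex P (List.replicate n aR) (atL D n F) (atR D n F) := by
  have key : ∀ (r l : List Cell), Ex P (List.replicate r.length aR)
      { D with X := ⟨l, r⟩ } { D with X := ⟨r.reverse ++ l, []⟩ } := by
    intro r
    induction r with
    | nil => intro l; exact .nil _
    | cons c r ih =>
      intro l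
      rw [List.length_cons, List.replicate_succ]
      refine .cons (.mvR _ c l r rfl) ?_
      have := ih (c :: l)
      simpa using this
  have := key (arr n F) []
  simpa [atL, atR] using this

/-! ### Semantics of the steps on cells -/

/-- Multiplication by the constants `W u`. -/
def dgC (P : CPar) (W : ℕ → List Bool × List Bool) (F : ℕ → Cell) (v : ℕ) : Cell :=
  if v % 2 = 0 then cmRe P (wv (W (v / 4)).1) (wv (W (v / 4)).2) (F v) (F (v + 1))
  else cmIm P (wv (W (v / 4)).1) (wv (W (v / 4)).2) (F (v - 1)) (F v)

/-- The products of the two operands. -/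
def prC (P : CPar) (F : ℕ → Cell) (v : ℕ) : Cell :=
  if v % 4 = 0 then cpRe P (F v) (F (v + 1)) (F (v + 2)) (F (v + 3))
  else if v % 4 = 1 then cpIm P (F (v - 1)) (F v) (F (v + 1)) (F (v + 2))
  else cZero

/-- A step at the level of cells; `W c u` = the words of the constant of the diagonal `c` at `u`. -/
def stC {δ : Type} (P : CPar) (W : DC δ → ℕ → List Bool × List Bool) :
    St δ → (ℕ → Cell) → (ℕ → Cell)
  | .dn J, F => J.foldr (fun b => dnF (b + 2)) F
  | .up J, F => J.foldr (fun b => upF (b + 2)) F
  | .dg c, F => dgC P (W c) F

/-- A list of steps, first step first. -/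
def runC {δ : Type} (P : CPar) (W : DC δ → ℕ → List Bool × List Bool) (l : List (St δ))
    (F : ℕ → Cell) : ℕ → Cell := l.foldl (fun F st => stC P W st F) F

/-- The array after loading: the cells of the `idx u`-th blocks of the operands at the selected
positions. -/
def ldC (P : CPar) (sel : ℕ → Bool) (idx : ℕ → ℕ) (bx bxy : ℕ → List Bool) (v : ℕ) : Cell :=
  if sel (v / 4) then
    (if v % 4 = 0 then cLoad P (Vale.Agent.P338.R2.H778.val (bx (idx (v / 4))))
    else if v % 4 = 2 then cLoad P (Vale.Agent.P338.R2.H778.val (bxy (idx (v / 4))))
    else cZero)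
  else cZero

end Vale.Agent.P338.R3.H898
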