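import Vale.Agent.P338.R3.H898.Arr
import Vale.Agent.P338.R2.H110.Acts
import Vale.Agent.P338.R3.H527.Word2

/-!
P338-D: the sweeps as acts of the cell machine.
-/

namespace Vale.Agent.P338.R3.H898

open Vale.Agent.P338.R3.H968
open Vale.Agent.P338.R2.H110
open Vale.Agent.P338.R3.H527 (opS nb bw)
open Vale.Agent.P338.R2.H898 (Zip)

/-- The code of an act of a sweep (`sg = true`: addition, `sg = false`: subtraction). -/
def saAct (sg : Bool) : SA → Act
  | .mv true => aR
  | .mv false => aL
  | .cp true => aPushR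
  | .cp false => aPushL
  | .tr => aTr
  | .ad true => bif sg then aAddR else aSubR
  | .ad false => bif sg then aAddL else aSubL

theorem opS_true (x y : Cell) : opS true x y = cAdd x y := rfl

theorem opS_false (x y : Cell) : opS false x y = cSub x y := by
  funext j
  show x j + -(y j) = x j - y j
  ring

theorem ex1_of_step {P : CPar} {sg : Bool} {a : SA} {s s' : ZS Cell}
    (h : a.Step (opS sg) s s') (D : DS) (hX : D.X = ⟨s.l, s.r⟩) (hA : D.A = s.A)
    (hB : D.B = s.B) :
    Ex1 P (saAct sg a) D { D with X := ⟨s'.l, s'.r⟩, A := s'.A, B := s'.B } := by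
  obtain ⟨X, Y, A, B, ix, iy, jx, jy, out, acc, cst, sh⟩ := D
  subst hX hA hB
  cases h with
  | mvR c l r A B => exact .mvR _ c l r rfl
  | mvL c l r A B => exact .mvL _ c l r rfl
  | cpR c l r A B => exact .pushR _ c l r rfl
  | cpL c l r A B => exact .pushL _ c l r rfl
  | tr c l r A B => exact .tr _ c A rfl
  | adR c e l r A B =>
    cases sg
    · rw [opS_false]
      exact .subR _ c e l r B rfl rfl
    · exact .addR _ c e l r B rfl rfl
  | adL c e l r A B =>
    cases sg
    · rw [opS_false]
      exact .subL _ c e l r B rfl rfl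
    · exact .addL _ c e l r B rfl rfl

theorem ex_of_steps {P : CPar} {sg : Bool} {l : List SA} {s s' : ZS Cell}
    (h : Steps (opS sg) l s s') : ∀ (D : DS), D.X = ⟨s.l, s.r⟩ → D.A = s.A → D.B = s.B →
    Ex P (l.map (saAct sg)) D { D with X := ⟨s'.l, s'.r⟩, A := s'.A, B := s'.B } := by
  induction h with
  | nil s =>
    intro D hX hA hB
    rw [← hX, ← hA, ← hB]
    exact .nil _
  | @cons a l s s1 s2 h1 _ ih =>
    intro D hX hA hB
    have e1 := ex1_of_step (P := P) h1 D hX hA hB
    exact .cons e1 (ih _ rfl rfl rfl)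

/-- The array as a table. -/
theorem tab_nb {α : Type*} (n : ℕ) (F : ℕ → α) :
    tab n (fun w => F (nb w)) = arr (2 ^ n) F := by
  induction n generalizing F with
  | zero => rfl
  | succ n ih =>
    rw [pow_succ, Nat.mul_two, arr_add]
    have e1 : tab n (fun w => F (nb (false :: w))) = tab n (fun w => F (nb w)) :=
      tab_congr fun w _ => by simp [nb]
    have e2 : tab n (fun w => F (nb (true :: w))) = tab n (fun w => F (2 ^ n + nb w)) :=
      tab_congr fun w hw => by simp [nb, hw]
    rw [tab, e1, e2, ih, ih (fun i => F (2 ^ n + i))]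

theorem tab_bw {α : Type*} (n : ℕ) (f : List Bool → α) :
    tab n f = arr (2 ^ n) (fun i => f (bw n i)) := by
  rw [← tab_nb]
  exact tab_congr fun w hw => by rw [← hw, Vale.Agent.P338.R3.H527.bw_nb]

end Vale.Agent.P338.R3.H898
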