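import Vale.Agent.P338.R3.H898.CoreHas
import Vale.Agent.P338.R3.H50.MicroFull
import Vale.Agent.P338.R3.H121.Par

/-!
P338-D: the acts of the control multiply, for the parameters of module PARAMS.
-/

namespace Vale.Agent.P338.R3.H898

open Vale.Agent.P338.R3.H968 (CPar DS)
open Vale.Agent.P338.R3.H282 (Geo St DC)
open Vale.Agent.P338.R3.H257 (blocks D0 nM Num)
open Vale.Agent.P338.R3.H50 (semP prS run_full)
open Vale.Agent.P338.R3.H313 (KP GP PP fwP bkP ldv ulv nTp nUp insP PV Ctl.acts)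
open Vale.Agent.P338.R3.H352 (Dc)
open Vale.Agent.P338.R3.H772 (lval)
open Vale.Agent.P338.R3.H121 (P0 pd ps py capP cpar VP geo wW bW sc kB)
open Vale.Agent.P338.R3.H501.Rad (sR NR)

/-- The parameters of the control. -/
def bigP (p : P0) : PV := ⟨pd p, ps p, py p⟩

/-- The parameters of the cells. -/
def cpP (p : P0) : CPar := cpar (pd p) (ps p) (py p)

/-- The number of blocks of an operand. -/
def mP (p : P0) : ℕ := 2 ^ (ps p - 1) * NR (pd p)

/-- The data at the start. -/
def dP (p : P0) (x y : List Bool) : DS :=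
  D0 (blocks ((cpP p).w * (cpP p).Y) (mP p) x) (blocks ((cpP p).w * (cpP p).Y) (mP p) y)

theorem geo_N (d s : ℕ) : (geo d s).N = NR d := by
  have h : ∀ (q : ℕ → ℕ) (D : ℕ), Vale.Agent.P338.R3.H955.up q 0 D = ∏ i ∈ Finset.range D, q i := by
    intro q D
    have h2 : ∀ D t, Vale.Agent.P338.R3.H955.up q t D = ∏ i ∈ Finset.range D, q (t + i) := by
      intro D
      induction D with
      | zero => intro t; rfl
      | succ D ih =>
        intro t
        show q t * Vale.Agent.P338.R3.H955.up q (t + 1) D = _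
        rw [ih, Finset.prod_range_succ', mul_comm, add_zero]
        refine congrArg (· * q t) (Finset.prod_congr rfl fun i _ => ?_)
        rw [add_assoc, add_comm 1 i]
    rw [h2]
    simp
  exact h _ _

theorem GP_N (p : P0) : (GP (bigP p)).N = NR (pd p) := geo_N _ _

theorem cap_eq (p : P0) : capP p = (cpP p).w * (cpP p).Y * mP p := by
  show 2 ^ (ps p - 1) * NR (pd p) * 2 ^ (py p) * wW (pd p) (ps p) (py p) =
    wW (pd p) (ps p) (py p) * 2 ^ (py p) * (2 ^ (ps p - 1) * NR (pd p))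
  ring

theorem cpP_ok (p : P0) : (cpP p).Ok := Vale.Agent.P338.R3.H121.cpar_ok _ _ _

/-- The numerical statement for all parameters. -/
def NumOK (cw : PV × DC Dc × ℕ → List Bool × List Bool) : Prop :=
  ∀ p : PV, 1 ≤ p.s → p.d ≤ p.s → Num (cpar p.d p.s p.y) (GP p) (2 ^ ((GP p).s - 1) * (GP p).N)
    (semP cw p (cpar p.d p.s p.y)) (prS (cpar p.d p.s p.y)) (fwP p) (bkP p)

/-- The constants are words of the length `b`. -/
def LenOK (cw : PV × DC Dc × ℕ → List Bool × List Bool) : Prop :=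
  ∀ x, (cw x).1.length = bW x.1.d x.1.s x.1.y ∧ (cw x).2.length = bW x.1.d x.1.s x.1.y

/-- **The acts of the control multiply.** -/
theorem ex_mul {cw : PV × DC Dc × ℕ → List Bool × List Bool} (hL : LenOK cw) (hN : NumOK cw)
    {p : P0} (hp : p ∈ VP) {x y : List Bool} (hx : x.length = capP p) (hy : y.length = capP p) :
    ∃ D' : DS, Ex (cpP p) (Ctl.acts nTp nUp (insP cw) (bigP p)) (dP p x y) D' ∧
      D'.out.length = 2 * capP p ∧ lval D'.out = lval x * lval y := by
  have hs : 1 ≤ (bigP p).s := (Nat.le_add_left 1 _).trans hp.1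
  have hds : (bigP p).d ≤ (bigP p).s := (Nat.le_add_right _ 1).trans hp.1
  have h4 : 4 ≤ (cpP p).s := by
    show 4 ≤ sc (pd p) (ps p) (py p)
    have := Vale.Agent.P338.R3.H121.le_wW (d := pd p) (s := ps p) (py p)
    unfold sc
    omega
  have hbig : (2 * (nM (GP (bigP p)) * (cpP p).Y * 2 ^ (2 * (cpP p).w)) + 1) *
      2 ^ ((cpP p).s + 2) ≤ 2 ^ (cpP p).b := by
    have hM : nM (GP (bigP p)) ≤ 2 ^ kB (pd p) (ps p) := by
      show 2 ^ (ps p) * (GP (bigP p)).N ≤ 2 ^ (ps p + Vale.Agent.P338.R3.H501.Rad.aR (pd p) * pd p)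
      rw [GP_N, pow_add]
      exact Nat.mul_le_mul_left _ (Vale.Agent.P338.R3.H121.NR_le_pow _)
    exact Vale.Agent.P338.R3.H121.unload_ineq hM
  have e : (cpP p).w * (cpP p).Y * (2 ^ ((bigP p).s - 1) * (GP (bigP p)).N) = capP p := by
    rw [GP_N, cap_eq]
    rfl
  obtain ⟨D2, h1, h2, h3⟩ := run_full cw (bigP p) (P := cpP p) (cpP_ok p) hs hds
    (fun c u _ => hL (bigP p, c, u)) (hN (bigP p) hs hds) h4 hbig x y (hx.trans e.symm)
    (hy.trans e.symm)
  rw [e] at h2
  refine ⟨D2, ?_, h2, h3⟩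
  have e2 : 2 ^ ((bigP p).s - 1) * (GP (bigP p)).N = mP p := by
    rw [GP_N]
    rfl
  rw [e2] at h1
  exact h1

theorem rest_dP (p : P0) (x y : List Bool) : Rest (dP p x y) := by
  constructor <;> rfl

end Vale.Agent.P338.R3.H898
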