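import Vale.Agent.P338.R3.H898.FinalA
import Vale.Agent.P338.R3.H328.RunGeo
import Vale.Agent.P338.R3.H313.Words
import Vale.Agent.P338.R3.H235.SetupOK

/-!
P338-D: the core program for all parameters, from the programs of the opcodes.
-/

namespace Vale.Agent.P338.R3.H898

open Vale.Agent.Lib.PolyTime (PT PB Enc enc esize Word pb PBd)
open Vale.Agent.P338.R2.H898 Vale.Agent.P338.R2.H784
open Vale.Agent.P338.R2.H968.CallEnv (mem0)
open Vale.Agent.P338.R3.H968 (CPar DS Ac bc dc FT)
open Vale.Agent.P338.D.CM (Ops)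
open Vale.Agent.P338.R3.H282 (Geo St DC)
open Vale.Agent.P338.R3.H257 (blocks D0)
open Vale.Agent.P338.R3.H313 (KP GP PP fwP bkP ldv ulv nTp nUp insP PV Ctl.acts Ctl.iters
  exists_cw pt_nTp pt_nUp pt_insP)
open Vale.Agent.P338.R3.H352 (Dc)
open Vale.Agent.P338.R3.H772 (lval HasCore)
open Vale.Agent.P338.R3.H121 (P0 pd ps py capP cpar VP geo wW bW sc kB)
open Vale.Agent.P338.R3.H235 (IsStart exists_setupOK)

theorem flatMap_blocks (k m : ℕ) : ∀ x : List Bool, x.length = k * m →
    (blocks k m x).flatMap List.reverse = x := by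
  have h : ∀ (m : ℕ) (x : List Bool), (blocks k m x).flatMap List.reverse = x.take (k * m) := by
    intro m
    induction m with
    | zero => intro x; simp [blocks]
    | succ m ih =>
      intro x
      have ih' := ih x
      unfold blocks at ih' ⊢
      rw [List.range_succ, List.map_append, List.flatMap_append, ih', Nat.mul_succ, List.take_add]
      simp
  intro x hx
  rw [h, List.take_of_length_le hx.le]

theorem isStart_dP {p : P0} {x y : List Bool} (hx : x.length = capP p) (hy : y.length = capP p) :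
    IsStart x y (dP p x y) where
  X := rfl
  Y := rfl
  A := rfl
  B := rfl
  ix := flatMap_blocks _ _ x (hx.trans (cap_eq p))
  iy := flatMap_blocks _ _ y (hy.trans (cap_eq p))
  jx := rfl
  jy := rfl
  out := rfl
  acc := rfl
  cst := rfl
  sh := rfl

/-- The cost of the setup. -/
def cS (e : ℕ) (p : P0) : ℕ :=
  pb e (2 ^ Vale.Agent.P338.R3.H501.Rad.aR (pd p) + ps p + py p) + 90 * (cpP p).ell + 14 * capP p

/-- The cost of the core program. -/
def cC (cw : PV × DC Dc × ℕ → List Bool × List Bool) (c e K : ℕ) (wt : CPar → ℕ → ℕ) (p : P0) :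
    ℕ :=
  cS e p + (K * wts wt (cpP p) (Ctl.acts nTp nUp (insP cw) (bigP p)) +
    (Ctl.iters nTp nUp (insP cw) (bigP p) + 1) * pb c (esize (bigP p))) + 1

/-- **The core program for all parameters.** -/
theorem exists_hasCore : ∃ (cw : PV × DC Dc × ℕ → List Bool × List Bool) (c e : ℕ),
    ∀ {A : MTM} {K : ℕ} {wt : CPar → ℕ → ℕ},
      Ops (dc A) bc (mem0 A) (repD (A := A)) (Mo wt) K → HasCore VP capP (cC cw c e K wt) := by
  obtain ⟨cw, Z, h1, h2, h3, h4⟩ := exists_cw
  obtain ⟨c, hc⟩ := hasCore_of pt_nTp pt_nUp (pt_insP h1)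
  obtain ⟨e, he⟩ := exists_setupOK
  refine ⟨cw, c, e, ?_⟩
  intro A K wt hO
  have hE : ∀ p ∈ VP, ∀ x y : List Bool, x.length = capP p → y.length = capP p →
      ∃ D' : DS, Ex (cpP p) (Ctl.acts nTp nUp (insP cw) (bigP p)) (dP p x y) D' ∧
        D'.out.length = 2 * capP p ∧ lval D'.out = lval x * lval y := by
    intro p hp x y hx hy
    exact Vale.Agent.P338.R3.H328.run_geo (cw := cw) (Z := Z) (bigP p) hp.1
      (fun u c => h2 (bigP p, u, c)) (fun u c => ⟨h3 (bigP p, u, c), h4 (bigP p, u, c)⟩) x y hx hy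
  exact hc hO (V := VP) (cap := capP) (big := bigP) (cp := cpP) (fun p _ => cpP_ok p)
    (D0 := dP) (cS := cS e) (he (fun p _ x y hx hy => isStart_dP hx hy))
    (fun p x y => rest_dP p x y) hE

end Vale.Agent.P338.R3.H898
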