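import Vale.Agent.P338.R2.H235.Ctl

/-!
P338-D: programs used before and after the main loop: rulers written by the control, reversal of a
file.
-/

namespace Vale.Agent.P338.R3.H898

open Vale.Agent.P338.R2.H898 Vale.Agent.P338.R2.H235 Function
open Vale.Agent.Lib.PolyTime (Enc enc esize pb PT PB)

variable {M F α : Type} [DecidableEq F] {d : α} {bit : Bool → α} {ι : ℕ → F} {W : ℕ}

/-! ### Counting with a constant symbol -/

/-- For every symbol of the rest of `g` append the symbol `u` to `f`. -/
def tally (u : α) (g f : F) : Prog M F α :=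
  .loop (fun _ x => (x g).isSome) (.seq (push f u) (op1 g .right))

theorem run_tally {u : α} {g f : F} (hgf : g ≠ f) (m : M) (r : List α) : ∀ (l l' : List α)
    (z : F → Zip α), z g = ⟨l, r⟩ → z f = ⟨l', []⟩ →
    Prog.Run d (tally u g f : Prog M F α) ⟨m, z⟩ (4 * r.length + 1)
      ⟨m, update (update z f ⟨List.replicate r.length u ++ l', []⟩) g ⟨r.reverse ++ l, []⟩⟩ := by
  induction r with
  | nil =>
    intro l l' z hg hf
    have e : update (update z f ⟨List.replicate ([] : List α).length u ++ l', []⟩) g
        ⟨([] : List α).reverse ++ l, []⟩ = z := by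
      funext x
      rcases eq_or_ne x g with rfl | hx1
      · simp [hg]
      · rcases eq_or_ne x f with rfl | hx2
        · simp [hx1, hf]
        · simp [hx1, hx2]
    rw [e]
    exact (Prog.Run.loopF (by simp [Store.reads, Zip.peek, hg])).mono (by omega)
  | cons a r ih =>
    intro l l' z hg hf
    have h1 := run_push (d := d) f u m z l' hf
    have h2 := run_op1 (d := d) g .right m (update z f ⟨u :: l', []⟩)
    have h3 := ih (a :: l) (u :: l') (update (update z f ⟨u :: l', []⟩) g ⟨a :: l, r⟩)
      (by simp) (by simp [hgf.symm])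
    have e2 : update (update z f ⟨u :: l', []⟩) g
        (Op.right.app d (update z f ⟨u :: l', []⟩ g)) =
          update (update z f ⟨u :: l', []⟩) g ⟨a :: l, r⟩ := by
      simp [hgf, hg, Op.app]
    rw [e2] at h2
    have h4 := Prog.Run.loopT (c := fun (_ : M) (x : F → Option α) => (x g).isSome)
      (by simp [Store.reads, Zip.peek, hg]) (h1.seq h2) h3
    have e : update (update (update (update z f ⟨u :: l', []⟩) g ⟨a :: l, r⟩) f
        ⟨List.replicate r.length u ++ u :: l', []⟩) g ⟨r.reverse ++ a :: l, []⟩ =
        update (update z f ⟨List.replicate (a :: r).length u ++ l', []⟩) g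
          ⟨(a :: r).reverse ++ l, []⟩ := by
      funext x
      rcases eq_or_ne x g with rfl | hx1
      · simp
      · rcases eq_or_ne x f with rfl | hx2
        · simp [hx1, List.replicate_succ', List.append_assoc]
        · simp [hx1, hx2]
    rw [e] at h4
    exact h4.mono (by simp only [List.length_cons]; omega)

/-- Write a ruler: `g` is a scratch file. -/
noncomputable def rulerProg (bit : Bool → α) (u : α) (p : SProg) (st tmp g : F) (ι : ℕ → F)
    (fo : F) : Prog M F α :=
  .seq (writeProg bit p st tmp ι g) (.seq (tally u g fo) (.seq (op1 fo .rew) (clr g)))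

theorem exists_ruler {β : Type*} [Enc β] {f : β → List Bool} (hf : PT ∅ f) :
    ∃ (p : SProg) (W c : ℕ), 2 ≤ W ∧ ∀ {M F α : Type} [DecidableEq F] {d : α} {bit : Bool → α}
      {ι : ℕ → F} {st tmp : F}, Lay ι W st tmp → bit true ≠ bit false →
      ∀ (u : α) (g fo : F), g ≠ tmp → (∀ i < W, ι i ≠ g) → fo ≠ g →
      ∀ (m : M) (z : F → Zip α) (a : β), HoldsVal bit z st a → Free ι W tmp z →
        z g = ⟨[], []⟩ → z fo = ⟨[], []⟩ →
        Prog.Run d (rulerProg bit u p st tmp g ι fo : Prog M F α) ⟨m, z⟩ (pb c (esize a))
          ⟨m, update z fo ⟨[], List.replicate (f a).length u⟩⟩ := by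
  obtain ⟨p, W, c, hW, h⟩ := exists_write hf
  obtain ⟨c1, hc1⟩ := hf.pbd
  have hPB : PB (fun n => pb c n + (4 * pb c1 n + 1) + 1 + 2) :=
    ((((PB.pb c)).add (((PB.const 4).mul (PB.pb c1)).add (PB.const 1))).add
      (PB.const 1)).add (PB.const 2)
  obtain ⟨c', hc'⟩ := hPB
  refine ⟨p, W, c', hW, ?_⟩
  intro M F α _ d bit ι st tmp hL hb u g fo hg hιg hfog m z a hst hfree hzg hzo
  have r1 := h (d := d) (M := M) hL hb g hg hιg m z a hst hfree hzg
  have r2 := run_tally (d := d) (u := u) (g := g) (f := fo) hfog.symm m ((f a).map bit) [] []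
    (update z g ⟨[], (f a).map bit⟩) (by simp) (by simp [hfog, hzo])
  set z2 := update (update (update z g ⟨[], (f a).map bit⟩) fo
    ⟨List.replicate ((f a).map bit).length u ++ [], []⟩) g ⟨((f a).map bit).reverse ++ [], []⟩
    with hz2
  have r3 := run_op1 (d := d) fo .rew m z2
  have r4 := run_clr (d := d) g m (update z2 fo (Op.rew.app d (z2 fo)))
  have e4 : update (update z2 fo (Op.rew.app d (z2 fo))) g ⟨[], []⟩ =
      update z fo ⟨[], List.replicate (f a).length u⟩ := by
    funext x
    rcases eq_or_ne x g with rfl | hx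
    · simp [hfog.symm, hzg]
    · rcases eq_or_ne x fo with rfl | hx'
      · simp [hx, hz2, Op.app]
      · simp [hx, hx', hz2]
  rw [e4] at r4
  refine (r1.seq (r2.seq (r3.seq r4))).mono ?_
  refine le_trans ?_ (hc' (esize a))
  show _ ≤ pb c (esize a) + (4 * pb c1 (esize a) + 1) + 1 + 2
  have hlen : (f a).length ≤ esize (f a) := by
    generalize f a = w
    induction w with
    | nil => simp
    | cons b w ih =>
      simp only [esize] at ih ⊢
      rw [Vale.Agent.Lib.PolyTime.enc_cons, Vale.Agent.Lib.PolyTime.length_pr]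
      simp only [List.length_cons]
      omega
  have h1 := (hlen.trans (hc1 a))
  have h2 := Nat.mul_le_mul_left 4 h1
  rw [List.length_map]
  omega

/-! ### Moving to the end, reversal -/

/-- Go to the right end. -/
def goEnd (f : F) : Prog M F α := .loop (fun _ x => (x f).isSome) (op1 f .right)

theorem run_goEnd {f : F} (m : M) (r : List α) : ∀ (l : List α) (z : F → Zip α), z f = ⟨l, r⟩ →
    Prog.Run d (goEnd f : Prog M F α) ⟨m, z⟩ (2 * r.length + 1)
      ⟨m, update z f ⟨r.reverse ++ l, []⟩⟩ := by
  induction r with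
  | nil =>
    intro l z hf
    have e : update z f ⟨([] : List α).reverse ++ l, []⟩ = z := by
      rw [← update_eq_self f z, hf]
      simp
    rw [e]
    exact (Prog.Run.loopF (by simp [Store.reads, Zip.peek, hf])).mono (by omega)
  | cons a r ih =>
    intro l z hf
    have h1 := run_op1 (d := d) f .right m z
    have e1 : update z f (Op.right.app d (z f)) = update z f ⟨a :: l, r⟩ := by
      rw [hf]; rfl
    rw [e1] at h1
    have h2 := ih (a :: l) (update z f ⟨a :: l, r⟩) (by simp)
    have h3 := Prog.Run.loopT (c := fun (_ : M) (x : F → Option α) => (x f).isSome)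
      (by simp [Store.reads, Zip.peek, hf]) h1 h2
    rw [update_idem] at h3
    have e : (r.reverse ++ a :: l) = ((a :: r).reverse ++ l) := by simp
    rw [e] at h3
    exact h3.mono (by simp only [List.length_cons]; omega)

/-- Move the contents of `g` to `f`; afterwards the head of `f` is at the right end and the symbols
to its left are, beginning with the nearest one, the former contents of `g`. -/
def flipTo (g f : F) : Prog M F α := .seq (goEnd g) (popAll g f)

theorem run_flipTo {g f : F} (hgf : g ≠ f) (m : M) (x : List α) (z : F → Zip α)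
    (hg : z g = ⟨[], x⟩) (hf : z f = ⟨[], []⟩) :
    Prog.Run d (flipTo g f : Prog M F α) ⟨m, z⟩ (7 * x.length + 3)
      ⟨m, update (update z f ⟨x, []⟩) g ⟨[], []⟩⟩ := by
  have h1 := run_goEnd (d := d) (f := g) m x [] z hg
  have h2 := run_popAll (d := d) (g := g) (f := f) hgf m (x.reverse ++ []) []
    (update z g ⟨x.reverse ++ [], []⟩) (by simp) (by simp [hgf.symm, hf])
  have e : update (update (update z g ⟨x.reverse ++ [], []⟩) f
      ⟨(x.reverse ++ []).reverse ++ [], []⟩) g ⟨[], []⟩ =
      update (update z f ⟨x, []⟩) g ⟨[], []⟩ := by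
    funext y
    rcases eq_or_ne y g with rfl | h1
    · simp
    · rcases eq_or_ne y f with rfl | h2
      · simp [h1]
      · simp [h1, h2]
  rw [e] at h2
  refine (h1.seq h2).mono ?_
  simp only [List.append_nil, List.length_reverse]
  omega

end Vale.Agent.P338.R3.H898
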