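import Vale.Agent.P338.R3.H898.Act

/-!
P338-D: the store on which the programs of the acts work, and what is required of them.
-/

namespace Vale.Agent.P338.R3.H898

open Vale.Agent.P338.R2.H898 Vale.Agent.P338.R2.H968 Vale.Agent.P338.R2.H784
open Vale.Agent.P338.R2.H968.CallEnv (mem0)
open Vale.Agent.P338.R3.H968

/-- The registers for the two payload words of an act. -/
inductive RG
  | u | v
  deriving DecidableEq

instance : Finite RG := by
  refine Finite.of_injective (fun x : RG => match x with | .u => true | .v => false) ?_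
  intro a b h
  cases a <;> cases b <;> simp_all

/-- The files of the programs of the acts. -/
abbrev FO (A : MTM) : Type := FT A ⊕ RG

/-- The contents of the registers. -/
def rg {A : MTM} (u v : List Bool) : RG → Zip (Ac A)
  | .u => ⟨[], u.map bc⟩
  | .v => ⟨[], v.map bc⟩

/-- The contents of all files. -/
def fo {A : MTM} (P : CPar) (D : DS) (u v : List Bool) : FO A → Zip (Ac A) :=
  Sum.elim (ft P D) (rg u v)

/-- The store. -/
abbrev sto {A : MTM} (P : CPar) (D : DS) (u v : List Bool) : Store (CallMem A) (FO A) (Ac A) :=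
  ⟨mem0 A, fo P D u v⟩

/-- Programs of acts. -/
abbrev PO (A : MTM) : Type := Prog (CallMem A) (FO A) (Ac A)

/-- Between two acts the second array and the registers `cst`, `sh` of the cell machine are in a
fixed state. -/
structure Rest (D : DS) : Prop where
  cst : D.cst = 0
  sh : D.sh = 0
  Y : D.Y = ⟨[], []⟩

theorem Rest.ex1 {P : CPar} {a : Act} {D D' : DS} (h : Rest D) (h1 : Ex1 P a D D') : Rest D' := by
  obtain ⟨h2, h3, h4⟩ := h
  cases h1 <;> exact ⟨h2, h3, h4⟩

theorem Rest.ex {P : CPar} {l : List Act} {D D' : DS} (h : Rest D) (h1 : Ex P l D D') :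
    Rest D' := by
  induction h1 with
  | nil => exact h
  | cons h2 _ ih => exact ih (h.ex1 h2)

/-- **What the programs of the acts must do** (`pr o` is the program of the opcode `o`, `wt P o` its
cost). -/
def OpcOK (A : MTM) [DecidableEq (FO A)] (pr : ℕ → PO A) (wt : CPar → ℕ → ℕ) : Prop :=
  ∀ (P : CPar), P.Ok → ∀ (o : ℕ) (u v : List Bool) (D D' : DS), Rest D →
    Ex1 P (o, u, v) D D' →
    Prog.Run (dc A) (pr o) (sto P D u v) (wt P o) (sto P D' u v)

/-- The same for one opcode. -/
def Opc1 (A : MTM) [DecidableEq (FO A)] (o : ℕ) (p : PO A) (wt : CPar → ℕ) : Prop :=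
  ∀ (P : CPar), P.Ok → ∀ (u v : List Bool) (D D' : DS), Rest D → Ex1 P (o, u, v) D D' →
    Prog.Run (dc A) p (sto P D u v) (wt P) (sto P D' u v)

theorem opcOK_of {A : MTM} [DecidableEq (FO A)] {pr : ℕ → PO A} {wt : CPar → ℕ → ℕ}
    (h : ∀ o < 16, Opc1 A o (pr o) fun P => wt P o) : OpcOK A pr wt := by
  intro P hP o u v D D' hR hE
  have ho : o < 16 := by
    generalize ha : ((o, u, v) : Act) = a at hE
    cases hE <;> (cases ha; norm_num)
  exact h o ho P hP u v D D' hR hE

end Vale.Agent.P338.R3.H898
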