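import Vale.Agent.P338.R3.H898.Core
import Vale.Agent.P338.R3.H651.ZCost2
import Vale.Agent.P338.R3.H527.ZMicro
import Vale.Agent.P338.R3.H121.Count

/-!
P338-D: the total weight of lists of acts; weight and number of iterations of a zeta step.
-/

namespace Vale.Agent.P338.R3.H898

open Vale.Agent.P338.R3.H968 (CPar)
open Vale.Agent.P338.R3.H313 (Act' Sw Mc swIns swLen swM actsEv mvA cpA trA adA)
open Vale.Agent.P338.R3.H313.Ctl (reps rep stepActs stepIters)
open Vale.Agent.P338.R3.H527 (Slide Good zActs lvC swActs posActs)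
open Vale.Agent.P338.R3.H651 (sws)

section wts

variable (wt : CPar → ℕ → ℕ) (P : CPar)

@[simp] theorem wts_nil : wts wt P [] = 0 := rfl

@[simp] theorem wts_cons (a : Act) (l : List Act) : wts wt P (a :: l) = wt P a.1 + wts wt P l := by
  simp [wts]

@[simp] theorem wts_append (l l' : List Act) : wts wt P (l ++ l') = wts wt P l + wts wt P l' := by
  simp [wts]

@[simp] theorem wts_replicate (n : ℕ) (a : Act) :
    wts wt P (List.replicate n a) = n * wt P a.1 := by
  simp [wts]

theorem wts_flatMap {ι : Type*} (l : List ι) (f : ι → List Act) :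
    wts wt P (l.flatMap f) = (l.map fun i => wts wt P (f i)).sum := by
  induction l with
  | nil => rfl
  | cons x l ih => simp [ih]

variable {wt P}

theorem wts_le {w : ℕ} {l : List Act} (h : ∀ a ∈ l, wt P a.1 ≤ w) :
    wts wt P l ≤ w * l.length := by
  induction l with
  | nil => simp
  | cons a l ih =>
    rw [wts_cons, List.length_cons, Nat.mul_succ, add_comm]
    exact Nat.add_le_add (ih fun a ha => h a (List.mem_cons_of_mem _ ha))
      (h a List.mem_cons_self)

theorem wts_flatMap_le {ι : Type*} {w : ℕ} {l : List ι} {f : ι → List Act}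
    (h : ∀ i ∈ l, wts wt P (f i) ≤ w) : wts wt P (l.flatMap f) ≤ l.length * w := by
  rw [wts_flatMap]
  induction l with
  | nil => simp
  | cons a l ih =>
    rw [List.map_cons, List.sum_cons, List.length_cons, Nat.succ_mul, add_comm]
    exact Nat.add_le_add (ih fun a ha => h a (List.mem_cons_of_mem _ ha))
      (h a List.mem_cons_self)

end wts

/-! ### the opcodes of a zeta step -/

theorem mem_reps {A : Type} {l : List (ℕ × A)} {a : A} (h : a ∈ reps l) : ∃ y ∈ l, y.2 = a := by
  unfold reps at h
  obtain ⟨y, hy, ha⟩ := List.mem_flatMap.1 h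
  refine ⟨y, hy, ?_⟩
  unfold rep at ha
  exact (List.eq_of_mem_replicate ha).symm

theorem actsEv_opc (d s : Bool) (e : ℕ × ℕ) : ∀ y ∈ actsEv d s e, y.2.1 ≤ 8 := by
  intro y hy
  unfold actsEv at hy
  cases h0 : decide (e.1 = 0) <;> cases h1 : decide (e.1 = 1) <;> cases h2 : decide (e.1 = 2) <;>
    simp only [h0, h1, h2, cond_true, cond_false, List.mem_cons, List.not_mem_nil, or_false] at hy
  all_goals rcases hy with rfl | rfl <;> cases d <;> cases s <;> simp [mvA, cpA, trA, adA]

theorem swIns_opc (c : Sw) (u : ℕ) : ∀ y ∈ swIns c u, y.2.1 ≤ 8 := by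
  intro y hy
  unfold swIns at hy
  obtain ⟨e, _, hy⟩ := List.mem_flatMap.1 hy
  exact actsEv_opc _ _ _ y hy

theorem swActs_opc (c : Sw) : ∀ a ∈ swActs c, a.1 ≤ 8 := by
  intro a ha
  unfold swActs at ha
  obtain ⟨u, _, ha⟩ := List.mem_flatMap.1 ha
  obtain ⟨y, hy, rfl⟩ := mem_reps ha
  exact swIns_opc c u y hy

theorem posActs_opc (c : Sw) : ∀ a ∈ posActs c, a.1 ≤ 8 := by
  intro a ha
  unfold posActs at ha
  cases h : c.1.1
  · rw [h, cond_false, List.mem_append] at ha
    rcases ha with ha | ha
    · rw [List.eq_of_mem_replicate ha]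
      simp [aR, Act.c]
    · exact swActs_opc c a ha
  · rw [h, cond_true, List.mem_append] at ha
    rcases ha with ha | ha
    · exact swActs_opc c a ha
    · rw [List.eq_of_mem_replicate ha]
      simp [aL, Act.c]

theorem zActs_opc (tr : Bool) (Q : ℕ × List Slide) (ls : List Bool) :
    ∀ a ∈ zActs tr Q ls, a.1 ≤ 8 := by
  intro a ha
  unfold zActs at ha
  obtain ⟨c, _, ha⟩ := List.mem_flatMap.1 ha
  exact posActs_opc c a ha

/-- The weight of a zeta step. -/
theorem wts_zActs {wt : CPar → ℕ → ℕ} {P : CPar} {w : ℕ} (hw : ∀ o ≤ 8, wt P o ≤ w) (tr : Bool)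
    (Q : ℕ × List Slide) (ls : List Bool) :
    wts wt P (zActs tr Q ls) ≤ w * (zActs tr Q ls).length :=
  wts_le fun a ha => hw _ (zActs_opc tr Q ls a ha)

/-! ### iterations -/

section iters

variable {S C A : Type} {len : S × C → ℕ} {ev : S × C × ℕ → List (ℕ × A)} {p : S} {c : C}

/-- The number of loop iterations of a pass is at most four times the number of its acts. -/
theorem stepIters_le (h1 : 1 ≤ len (p, c)) (h : ∀ u, ev (p, c, u) ≠ [] ∧
    ∀ y ∈ ev (p, c, u), 1 ≤ y.1) :
    stepIters len ev p c ≤ 4 * (stepActs len ev p c).length := by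
  rw [Vale.Agent.P338.R3.H313.Ctl.stepIters_eq]
  have h2 : ∀ u, (ev (p, c, u)).length ≤ (reps (ev (p, c, u))).length := fun u =>
    H651.length_le_length_reps _ (h u).2
  have h3 : ∀ u, 1 ≤ (ev (p, c, u)).length := fun u => List.length_pos_of_ne_nil (h u).1
  have h4 : ((List.range (len (p, c))).map fun u => (ev (p, c, u)).length + 1).sum ≤
      2 * (stepActs len ev p c).length := by
    unfold stepActs
    rw [List.length_flatMap, ← List.sum_map_mul_left]
    refine List.sum_le_sum fun u _ => ?_
    have := h2 u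
    have := h3 u
    omega
  have h5 : 1 ≤ (stepActs len ev p c).length := by
    unfold stepActs
    rw [List.length_flatMap]
    obtain ⟨n, hn⟩ : ∃ n, len (p, c) = n + 1 := ⟨len (p, c) - 1, by omega⟩
    rw [hn, List.range_succ, List.map_append, List.sum_append]
    have := h2 n
    have := h3 n
    simp only [List.map_cons, List.map_nil, List.sum_cons, List.sum_nil, add_zero]
    omega
  omega

end iters

end Vale.Agent.P338.R3.H898
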